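import Mathlib

/-!
# Row 218 (helper86): Yorke's argument and uniform admissibility
-/

set_option autoImplicit false
open Set Filter Topology Metric

noncomputable section

namespace Crest.Agent.N218.Yk

variable {E ι : Type*} [NormedAddCommGroup E] [NormedSpace ℝ E]

/-- the odd part -/
def mn (τ : Equiv.Perm ι) (z : ι → E) (i : ι) : E := (1 / 2 : ℝ) • (z i - z (τ i))

theorem mn_tau {τ : Equiv.Perm ι} (h : τ * τ = 1) (z : ι → E) (i : ι) :
    mn τ z (τ i) = -mn τ z i := by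
  have : τ (τ i) = i := by rw [← Equiv.Perm.mul_apply, h]; rfl
  rw [mn, mn, this, ← smul_neg, neg_sub]

theorem mn_add (τ : Equiv.Perm ι) (y z : ι → E) : mn τ (y + z) = mn τ y + mn τ z := by
  funext i; simp only [mn, Pi.add_apply]; module

theorem mn_sub (τ : Equiv.Perm ι) (y z : ι → E) : mn τ (y - z) = mn τ y - mn τ z := by
  funext i; simp only [mn, Pi.sub_apply]; module

theorem mn_smul (τ : Equiv.Perm ι) (c : ℝ) (z : ι → E) : mn τ (c • z) = c • mn τ z := by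
  funext i; simp only [mn, Pi.smul_apply]; module

theorem mn_mn {τ : Equiv.Perm ι} (h : τ * τ = 1) (z : ι → E) : mn τ (mn τ z) = mn τ z := by
  funext i; rw [mn, mn_tau h]; module

theorem mn_eq_zero {τ : Equiv.Perm ι} {z : ι → E} : mn τ z = 0 ↔ ∀ i, z (τ i) = z i := by
  simp only [funext_iff, mn, Pi.zero_apply, smul_eq_zero, sub_eq_zero]
  exact forall_congr' fun i => ⟨fun h => (h.resolve_left (by norm_num)).symm, fun h => .inr h.symm⟩

/-- **Yorke** -/
theorem yorke {σ τ : Equiv.Perm ι} {j : ℕ} (hτ : τ = σ ^ j) (h2 : τ * τ = 1) {s η : ℝ} (hs : 0 ≤ s)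
    (hη : 0 ≤ η) (hj : (1 + η) ^ j < 3) {f : E → E} {z : ι → E}
    (hf : ∀ i, ‖f (z i) - z i - (f (z (τ i)) - z (τ i))‖ ≤ η * ‖z i - z (τ i)‖)
    (hz : ∀ i, z (σ i) + s • mn τ z (σ i) = f (z i)) : mn τ z = 0 := by
  have cm : ∀ i, τ (σ i) = σ (τ i) := fun i => by
    rw [hτ, ← Equiv.Perm.mul_apply, ← pow_succ, pow_succ', Equiv.Perm.mul_apply]
  have st : ∀ i, ‖(1 + s) • mn τ z (σ i) - mn τ z i‖ ≤ η * ‖mn τ z i‖ := fun i => by
    have a := hz i
    have b := hz (τ i)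
    rw [← cm, mn_tau h2] at b
    have : (1 + s) • mn τ z (σ i) - mn τ z i =
        (1 / 2 : ℝ) • (f (z i) - z i - (f (z (τ i)) - z (τ i))) := by
      rw [← a, ← b]; simp only [mn]; module
    rw [this, mn, norm_smul, norm_smul, mul_left_comm]
    exact mul_le_mul_of_nonneg_left (hf i) (norm_nonneg _)
  funext i
  have key : ∀ n : ℕ, ‖(1 + s) ^ n • mn τ z ((σ ^ n) i) - mn τ z i‖ ≤
      ((1 + η) ^ n - 1) * ‖mn τ z i‖ := fun n => by
    induction n with
    | zero => simp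
    | succ n ih =>
      have p : 0 ≤ (1 + s) ^ n := by positivity
      have a := mul_le_mul_of_nonneg_left (st ((σ ^ n) i)) p
      rw [← Real.norm_of_nonneg p, ← norm_smul, mul_left_comm, ← norm_smul, smul_sub, smul_smul,
        ← pow_succ, ← Equiv.Perm.mul_apply, ← pow_succ'] at a
      have b := norm_sub_le_norm_sub_add_norm_sub ((1 + s) ^ (n + 1) • mn τ z ((σ ^ (n + 1)) i))
        ((1 + s) ^ n • mn τ z ((σ ^ n) i)) (mn τ z i)
      have c := norm_le_norm_add_norm_sub' ((1 + s) ^ n • mn τ z ((σ ^ n) i)) (mn τ z i)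
      have d := mul_le_mul_of_nonneg_left (c.trans (add_le_add le_rfl ih)) hη
      rw [pow_succ (1 + η)]
      linarith
  have k := key j
  rw [← hτ, mn_tau h2, show (1 + s) ^ j • -mn τ z i - mn τ z i = -((1 + (1 + s) ^ j) • mn τ z i) by
    module, norm_neg, norm_smul, Real.norm_of_nonneg (by positivity)] at k
  have := one_le_pow₀ (n := j) (show (1 : ℝ) ≤ 1 + s by linarith)
  exact norm_eq_zero.1 (le_antisymm (by nlinarith [norm_nonneg (mn τ z i)]) (norm_nonneg _))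

variable [Fintype ι] [FiniteDimensional ℝ E]

/-- pseudo-orbits are bounded -/
theorem bdd (σ : Equiv.Perm ι) (A : E →L[ℝ] E) (hA : ∀ z : ι → E, (∀ i, z (σ i) = A (z i)) → z = 0) :
    ∃ K : ℝ, 0 ≤ K ∧ ∀ (z : ι → E) (c : ℝ), (∀ i, ‖z (σ i) - A (z i)‖ ≤ c) → 0 ≤ c → ‖z‖ ≤ K * c := by
  let T : (ι → E) →ₗ[ℝ] (ι → E) :=
    LinearMap.pi fun i => LinearMap.proj (σ i) -
      (A : E →ₗ[ℝ] E).comp (LinearMap.proj (φ := fun _ : ι => E) i)
  obtain ⟨K, -, hK⟩ := T.exists_antilipschitzWith (LinearMap.ker_eq_bot'.2 fun z e =>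
    hA z fun i => sub_eq_zero.1 (congrFun e i))
  exact ⟨K, K.2, fun z c h c0 => (ZeroHomClass.bound_of_antilipschitz T hK z).trans
    (mul_le_mul_of_nonneg_left ((pi_norm_le_iff_of_nonneg c0).2 h) K.2)⟩

/-- small pseudo-orbits shadow true orbits -/
theorem shadow {P : Type*} [TopologicalSpace P] [CompactSpace P] (σ : Equiv.Perm ι)
    {f : P → E → E} (hf : Continuous fun x : P × E => f x.1 x.2) (A : E →L[ℝ] E)
    (hA : ∀ z : ι → E, (∀ i, z (σ i) = A (z i)) → z = 0) {C : ℝ} (hC : ∀ p y, ‖f p y - A y‖ ≤ C)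
    {O : Set (P × (ι → E))} (hO : IsOpen O) (h0 : ∀ p z, (∀ i, z (σ i) = f p (z i)) → (p, z) ∈ O) :
    ∃ δ : ℝ, 0 < δ ∧ ∀ p z, (∀ i, ‖z (σ i) - f p (z i)‖ ≤ δ) → (p, z) ∈ O := by
  obtain ⟨K, K0, hK⟩ := bdd σ A hA
  have hc : IsCompact ((univ ×ˢ closedBall (0 : ι → E) (K * (|C| + 1))) \ O) :=
    (isCompact_univ.prod (isCompact_closedBall _ _)).diff hO
  let g : P × (ι → E) → ℝ := fun x => ‖fun i => x.2 (σ i) - f x.1 (x.2 i)‖
  have hg : Continuous g := continuous_norm.comp (continuous_pi fun i =>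
    ((continuous_apply _).comp continuous_snd).sub
      (hf.comp (continuous_fst.prodMk ((continuous_apply i).comp continuous_snd))))
  obtain ⟨d, d0, hd⟩ := hc.exists_forall_le' hg.continuousOn (a := 0) fun x hx =>
    norm_pos_iff.2 fun e => hx.2 (h0 _ _ fun i => sub_eq_zero.1 (congrFun e i))
  refine ⟨min 1 (d / 2), by positivity, fun p z h => by_contra fun n => ?_⟩
  have a := hd (p, z) ⟨⟨mem_univ _, mem_closedBall_zero_iff.2 (hK z _ (fun i => ?_) (by positivity))⟩, n⟩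
  · have : g (p, z) ≤ d / 2 :=
      (pi_norm_le_iff_of_nonneg (by positivity)).2 fun i => (h i).trans (min_le_right _ _)
    linarith
  · have := norm_sub_le_norm_sub_add_norm_sub (z (σ i)) (f p (z i)) (A (z i))
    linarith [(h i).trans (min_le_left _ _), hC p (z i), le_abs_self C]

/-- `f - id` is `η`-Lipschitz near the fixed points, locally uniformly in the parameter -/
def Lf {P : Type*} [TopologicalSpace P] (f : P → E → E) (η : ℝ) : Prop :=
  ∀ p y, f p y = y → ∀ᶠ x : P × E × E in 𝓝 (p, y, y),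
    ‖f x.1 x.2.1 - x.2.1 - (f x.1 x.2.2 - x.2.2)‖ ≤ η * ‖x.2.1 - x.2.2‖

/-- **uniform admissibility** -/
theorem adm {P : Type*} [TopologicalSpace P] [CompactSpace P] {σ τ : Equiv.Perm ι} {j : ℕ}
    (hτ : τ = σ ^ j) (h2 : τ * τ = 1) {η : ℝ} (hη : 0 ≤ η) (hj : (1 + η) ^ j < 3)
    {f : P → E → E} (hf : Continuous fun x : P × E => f x.1 x.2) (A : E →L[ℝ] E)
    (hA : ∀ z : ι → E, (∀ i, z (σ i) = A (z i)) → z = 0) {C : ℝ} (hC : ∀ p y, ‖f p y - A y‖ ≤ C)
    (hp : ∀ p (z : ι → E), (∀ i, z (σ i) = f p (z i)) → ∀ i, z (σ i) = z i) (hL : Lf f η) :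
    ∃ δ : ℝ, 0 < δ ∧ ∀ p (s : ℝ) (z : ι → E), 0 ≤ s → ‖s • mn τ z‖ ≤ δ →
      (∀ i, z (σ i) + s • mn τ z (σ i) = f p (z i)) → mn τ z = 0 := by
  obtain ⟨δ, d0, hd⟩ := shadow σ hf A hA hC (O := interior {x : P × (ι → E) | ∀ i,
    ‖f x.1 (x.2 i) - x.2 i - (f x.1 (x.2 (τ i)) - x.2 (τ i))‖ ≤ η * ‖x.2 i - x.2 (τ i)‖})
    isOpen_interior fun p z h => mem_interior_iff_mem_nhds.2 (eventually_all.2 fun i => by
      have a : ∀ n : ℕ, z ((σ ^ n) i) = z i := fun n => by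
        induction n with
        | zero => rfl
        | succ n ih => rw [pow_succ', Equiv.Perm.mul_apply, hp p z h, ih]
      have b : Tendsto (fun x : P × (ι → E) => (x.1, x.2 i, x.2 (τ i))) (𝓝 (p, z))
          (𝓝 (p, z i, z (τ i))) := Continuous.tendsto (by fun_prop) _
      rw [hτ, a j, ← hτ] at b
      exact b (hL p (z i) ((h i).symm.trans (hp p z h i))))
  refine ⟨δ, d0, fun p s z s0 a b => yorke hτ h2 s0 hη hj (interior_subset (hd p z fun i => ?_)) b⟩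
  rw [← b i, sub_add_cancel_left, norm_neg]
  exact (norm_le_pi_norm (s • mn τ z) (σ i)).trans a

/-- the normalised form: `Ψ (y₊ + t y₋) + (1 - t) y₋ = 0` forces `y₋ = 0` -/
theorem adm' {P : Type*} [TopologicalSpace P] [CompactSpace P] {σ τ : Equiv.Perm ι} {j : ℕ}
    (hτ : τ = σ ^ j) (h2 : τ * τ = 1) {η : ℝ} (hη : 0 ≤ η) (hj : (1 + η) ^ j < 3)
    {f : P → E → E} (hf : Continuous fun x : P × E => f x.1 x.2) (A : E →L[ℝ] E)
    (hA : ∀ z : ι → E, (∀ i, z (σ i) = A (z i)) → z = 0) {C : ℝ} (hC : ∀ p y, ‖f p y - A y‖ ≤ C)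
    (hp : ∀ p (z : ι → E), (∀ i, z (σ i) = f p (z i)) → ∀ i, z (σ i) = z i) (hL : Lf f η) :
    ∃ δ : ℝ, 0 < δ ∧ ∀ p (t : ℝ) (y z : ι → E), 0 ≤ t → t ≤ 1 → (t = 1 ∨ ‖mn τ y‖ ≤ δ) →
      z = y - (1 - t) • mn τ y → (∀ i, z (σ i) - f p (z i) + (1 - t) • mn τ y (σ i) = 0) →
        mn τ y = 0 := by
  obtain ⟨δ, d0, hd⟩ := adm hτ h2 hη hj hf A hA hC hp hL
  refine ⟨δ, d0, fun p t y z t0 t1 a e b => ?_⟩
  have m : mn τ z = t • mn τ y := by rw [e, mn_sub, mn_smul, mn_mn h2]; module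
  rcases t0.eq_or_lt with rfl | t0
  · have c := mn_eq_zero.1 (m.trans (zero_smul _ _))
    have cm : ∀ i, τ (σ i) = σ (τ i) := fun i => by
      rw [hτ, ← Equiv.Perm.mul_apply, ← pow_succ, pow_succ', Equiv.Perm.mul_apply]
    funext i
    obtain ⟨i, rfl⟩ := σ.surjective i
    have u := b i
    have v := b (τ i)
    rw [← cm, c, c, mn_tau h2] at v
    have : (2 : ℝ) • mn τ y (σ i) = 0 := by
      rw [← sub_self (0 : E)]; nth_rw 1 [← u]; rw [← v]; module
    exact (smul_eq_zero.1 this).resolve_left two_ne_zero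
  have k : ((1 - t) / t) • mn τ z = (1 - t) • mn τ y := by
    rw [m, smul_smul, div_mul_cancel₀ _ t0.ne']
  have := hd p ((1 - t) / t) z (div_nonneg (by linarith) t0.le) (by
    rw [k]
    rcases a with rfl | a
    · simpa using d0.le
    · rw [norm_smul, Real.norm_of_nonneg (by linarith)]
      nlinarith [norm_nonneg (mn τ y)]) fun i => by
    have := congrFun k (σ i)
    rw [Pi.smul_apply, Pi.smul_apply] at this
    rw [this, ← sub_eq_zero, ← b i]; abel
  exact (smul_eq_zero.1 (m.symm.trans this)).resolve_left t0.ne'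

end Crest.Agent.N218.Yk
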